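import Mathlib

set_option linter.all false

/-!
`log (1 + t) ≤ t - t ^ 2 / 4` on `[-1/2, 1/2]`
-/

namespace Vale.Agent.P050.Opt.H602

theorem log_le {t : ℝ} (h1 : -(1 / 2) ≤ t) (h2 : t ≤ 1 / 2) :
    Real.log (1 + t) ≤ t - t ^ 2 / 4 := by
  have h0 : (0:ℝ) < 1 + t := by linarith
  rw [Real.log_le_iff_le_exp h0]
  rcases le_or_gt 0 t with ht | ht
  · have hx : 0 ≤ t - t ^ 2 / 4 := by nlinarith
    refine le_trans ?_ (Real.quadratic_le_exp_of_nonneg hx)
    have h5 : (3 / 4 * t) ≤ t - t ^ 2 / 4 := by nlinarith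
    have h6 : (3 / 4 * t) ^ 2 ≤ (t - t ^ 2 / 4) ^ 2 := pow_le_pow_left₀ (by positivity) h5 2
    nlinarith [sq_nonneg t]
  · set x := t - t ^ 2 / 4 with hx
    have hx0 : x ≤ t := by rw [hx]; nlinarith [sq_nonneg t]
    have hx1 : -(9 / 16) ≤ x := by rw [hx]; nlinarith
    have h4 := Real.exp_bound (x := x) (by rw [abs_le]; constructor <;> linarith) (n := 4)
      (by norm_num)
    simp [Finset.sum_range_succ, Nat.factorial] at h4
    have h5 := (abs_le.1 h4).1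
    have h6 : |x| ^ 4 = x ^ 4 := by rw [← abs_pow, abs_of_nonneg (by positivity)]
    rw [h6] at h5
    have h7 : t ^ 2 ≤ x ^ 2 := by nlinarith
    have h80 : x ^ 2 ≤ 1 := by nlinarith
    have h8 : x ^ 4 ≤ x ^ 2 := by nlinarith [sq_nonneg x, mul_nonneg (sq_nonneg x) (sub_nonneg.2 h80)]
    have h9 : -(9 / 16) * x ^ 2 ≤ x ^ 3 := by nlinarith [sq_nonneg x]
    have h10 : t ^ 2 = 4 * (t - x) := by rw [hx]; ring
    nlinarith

end Vale.Agent.P050.Opt.H602
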