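import Vale.Agent.P050.O.H928.Step
import Vale.Agent.P050.O.H998.ITle

set_option linter.all false

/-!
Dense targets, optimal order, S4 (helper602): ratios of partition functions.
-/

open MeasureTheory Finset

namespace Vale.Agent.P050.Opt

open Vale.Agent.P050 Vale.Agent.P050.Dense

variable {V : Type*} [Fintype V] [DecidableEq V] {Ω : Type*} [MeasurableSpace Ω]
variable (H : SimpleGraph V) [DecidableRel H.Adj]
variable (μ : Measure Ω) [IsProbabilityMeasure μ] {U : Sym2 Ω → ℝ} {R : V → Ω → ℝ} {κ η : ℝ}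

namespace H602

theorem nonneg (hU : Ker μ U κ η) (hR : One μ R) (Λ : Finset V) : 0 ≤ ZE H μ U R Λ :=
  integral_nonneg fun z => H998.Env_nonneg H hU hR Λ z

/-- one term of the first step -/
theorem term_le {D : ℕ} (hD : ∀ v, H.degree v ≤ D) (hU : Ker μ U κ η) (hη : (1 + η) ^ D ≤ 2)
    (hR : One μ R) (o : V → ℕ) {Λ : Finset V} {v a : V} (hv : v ∉ Λ) (ha : a ∈ Λ) :
    |IT H μ U R (fun z => (1 + R v (z v)) * U s(z v, z a)) {v} (O1 H o v a) Λ| ≤
      3 * κ * ZE H μ U R Λ := by
  have hη0 := hU.η0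
  have hav : a ≠ v := fun h => hv (h ▸ ha)
  have hbU : BM (fun z : V → Ω => |U s(z v, z a)|) := (bm_U hU.good v a).abs
  have hE := H998.bm_Env H hU hR Λ
  have hb : BM (fun z : V → Ω => 3 * |U s(z v, z a)| * Env H U R Λ z) :=
    ((BM.const 3).mul hbU).mul hE
  unfold IT
  have h1 : |∫ z, (1 + R v (z v)) * U s(z v, z a) * Kp U {v} (O1 H o v a) Λ z * Env H U R Λ z
      ∂(piM V μ)| ≤ ∫ z, 3 * |U s(z v, z a)| * Env H U R Λ z ∂(piM V μ) := by
    rw [← Real.norm_eq_abs]
    refine norm_integral_le_of_norm_le (hb.integrable _) (Filter.Eventually.of_forall fun z => ?_)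
    have hE0 := H998.Env_nonneg H hU hR Λ z
    have hR0 := abs_le.1 (hR.bd v (z v))
    have hK0 : 0 ≤ Kp U {v} (O1 H o v a) Λ z := by
      unfold Kp
      exact Finset.prod_nonneg fun x _ => Finset.prod_nonneg fun w _ => hU.one_add_nonneg _
    have hK2 : Kp U {v} (O1 H o v a) Λ z ≤ 2 := by
      unfold Kp
      rw [Finset.prod_singleton]
      have hc : (O1 H o v a v ∩ Λ).card ≤ D := by
        refine (Finset.card_le_card Finset.inter_subset_left).trans ?_
        unfold O1
        rw [Function.update_self]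
        exact (Finset.card_le_card (Finset.filter_subset _ _)).trans
          ((H.card_neighborFinset_eq_degree v).trans_le (hD v))
      calc ∏ w ∈ O1 H o v a v ∩ Λ, (1 + U s(z v, z w)) ≤ ∏ _w ∈ O1 H o v a v ∩ Λ, (1 + η) :=
            Finset.prod_le_prod (fun w _ => hU.one_add_nonneg _) fun w _ => hU.one_add_le _
        _ = (1 + η) ^ (O1 H o v a v ∩ Λ).card := by rw [Finset.prod_const]
        _ ≤ (1 + η) ^ D := pow_le_pow_right₀ (by linarith) hc
        _ ≤ 2 := hη
    rw [Real.norm_eq_abs, abs_mul, abs_mul, abs_mul, abs_of_nonneg hE0, abs_of_nonneg hK0,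
      abs_of_nonneg (show (0 : ℝ) ≤ 1 + R v (z v) by linarith [hR0.1])]
    refine mul_le_mul_of_nonneg_right ?_ hE0
    have hu := abs_nonneg (U s(z v, z a))
    calc (1 + R v (z v)) * |U s(z v, z a)| * Kp U {v} (O1 H o v a) Λ z
        ≤ (3 / 2) * |U s(z v, z a)| * 2 := by
          refine mul_le_mul (mul_le_mul_of_nonneg_right (by linarith [hR0.2]) hu) hK2 hK0
            (by positivity)
      _ = 3 * |U s(z v, z a)| := by ring
  refine h1.trans ?_
  rw [integral_update μ v hb]
  have h2 : ∀ z : V → Ω, ∫ y, 3 * |U s(Function.update z v y v, Function.update z v y a)| *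
      Env H U R Λ (Function.update z v y) ∂μ = 3 * (∫ y, |two U (z a) y| ∂μ) * Env H U R Λ z := by
    intro z
    rw [← integral_const_mul, ← integral_mul_const]
    congr 1
    ext y
    rw [Function.update_self, Function.update_of_ne hav]
    have e1 : Env H U R Λ (Function.update z v y) = Env H U R Λ z :=
      H998.Env_congr H fun w hw => Function.update_of_ne (fun h : w = v => hv (h ▸ hw)) _ _
    rw [e1, Sym2.eq_swap]
    rfl
  simp only [h2]
  unfold ZE
  rw [← integral_const_mul]
  refine integral_mono_of_nonneg (Filter.Eventually.of_forall fun z => ?_)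
    (((BM.const (3 * κ)).mul hE).integrable _) (Filter.Eventually.of_forall fun z => ?_)
  · have := H998.Env_nonneg H hU hR Λ z
    have h3 : 0 ≤ ∫ y, |two U (z a) y| ∂μ := integral_nonneg fun y => abs_nonneg _
    show 0 ≤ 3 * (∫ y, |two U (z a) y| ∂μ) * Env H U R Λ z
    positivity
  · have := H998.Env_nonneg H hU hR Λ z
    have h3 := hU.l1 (z a)
    show 3 * (∫ y, |two U (z a) y| ∂μ) * Env H U R Λ z ≤ 3 * κ * Env H U R Λ z
    exact mul_le_mul_of_nonneg_right (by linarith) this

end H602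

theorem ZE_ratio {D : ℕ} (hD : ∀ v, H.degree v ≤ D) (hU : Ker μ U κ η) (hη : (1 + η) ^ D ≤ 2)
    (hR : One μ R) (hκ : 24 * D * κ ≤ 1) {Λ : Finset V} {v : V} (hv : v ∉ Λ) :
    |ZE H μ U R (insert v Λ) - ZE H μ U R Λ| ≤ 1 / 8 * ZE H μ U R Λ := by
  have hZ := H602.nonneg H μ hU hR Λ
  have hκ0 := hU.κ0
  have ho : Function.Injective fun v : V => ((Fintype.equivFin V v : Fin _) : ℕ) :=
    Fin.val_injective.comp (Fintype.equivFin V).injective
  rw [start H _ μ ho hU hR hv]
  refine (Finset.abs_sum_le_sum_abs _ _).trans ?_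
  have h1 : ∀ a ∈ Λ.filter (fun a => H.Adj v a),
      |IT H μ U R (fun z => (1 + R v (z v)) * U s(z v, z a)) {v}
        (O1 H (fun v : V => ((Fintype.equivFin V v : Fin _) : ℕ)) v a) Λ| ≤
      3 * κ * ZE H μ U R Λ := fun a ha =>
    H602.term_le H μ hD hU hη hR _ hv (Finset.mem_filter.1 ha).1
  refine (Finset.sum_le_sum h1).trans ?_
  rw [Finset.sum_const, nsmul_eq_mul]
  have hc : (Λ.filter (fun a => H.Adj v a)).card ≤ D := by
    refine (Finset.card_le_card (t := H.neighborFinset v) fun a ha => ?_).trans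
      ((H.card_neighborFinset_eq_degree v).trans_le (hD v))
    rw [SimpleGraph.mem_neighborFinset]
    exact (Finset.mem_filter.1 ha).2
  have hc' : ((Λ.filter (fun a => H.Adj v a)).card : ℝ) ≤ D := by exact_mod_cast hc
  calc ((Λ.filter (fun a => H.Adj v a)).card : ℝ) * (3 * κ * ZE H μ U R Λ)
      ≤ D * (3 * κ * ZE H μ U R Λ) := mul_le_mul_of_nonneg_right hc' (by positivity)
    _ = (3 * D * κ) * ZE H μ U R Λ := by ring
    _ ≤ 1 / 8 * ZE H μ U R Λ := mul_le_mul_of_nonneg_right (by linarith) hZ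

theorem ZE_pos {D : ℕ} (hD : ∀ v, H.degree v ≤ D) (hU : Ker μ U κ η) (hη : (1 + η) ^ D ≤ 2)
    (hR : One μ R) (hκ : 24 * D * κ ≤ 1) (Λ : Finset V) : 0 < ZE H μ U R Λ := by
  induction Λ using Finset.induction_on with
  | empty =>
    have h1 : ZE H μ U R (∅ : Finset V) = 1 := by
      unfold ZE
      have h2 : ∀ z : V → Ω, Env H U R ∅ z = 1 := by
        intro z
        unfold Env
        rw [Finset.prod_empty, one_mul]
        refine Finset.prod_eq_one fun e he => ?_
        exfalso
        have h3 := (Finset.mem_filter.1 he).2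
        induction e with
        | h a b => exact absurd (h3 a (Sym2.mem_mk_left a b)) (Finset.notMem_empty a)
      simp only [h2]
      simp
    rw [h1]
    exact one_pos
  | insert v Λ hv ih =>
    have h1 := (abs_le.1 (ZE_ratio H μ hD hU hη hR hκ hv)).1
    linarith

end Vale.Agent.P050.Opt
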