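import Vale.Agent.P050.O.H300.StarDefs
import Vale.Agent.P050.O.H300.Bas
import Vale.Agent.P050.R2.H300.Basic

set_option linter.all false

/-!
Dense targets, phase 5, V0 (helper602).
-/

open MeasureTheory Finset

namespace Vale.Agent.P050.Opt

open Vale.Agent.P050 Vale.Agent.P050.Dense

namespace H602

variable {V : Type*} [Fintype V] [DecidableEq V] {Ω : Type*} [MeasurableSpace Ω]

/-- every function on a finite space with measurable singletons is bounded and measurable -/
theorem bm_fin [Finite Ω] [MeasurableSingletonClass Ω] (f : Ω → ℝ) : BM f := by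
  have := Fintype.ofFinite Ω
  refine ⟨measurable_of_finite f, ∑ s, |f s|, fun x => ?_⟩
  exact Finset.single_le_sum (f := fun s => |f s|) (fun _ _ => abs_nonneg _) (mem_univ x)

theorem bm_k {k : V → Ω → ℝ} (hk : ∀ v, BM (k v)) (S : Finset V) :
    BM (fun z : V → Ω => ∏ v ∈ S, k v (z v)) :=
  BM.finprod S fun v _ => (hk v).comp (measurable_pi_apply v)

theorem bm_edges {U : Sym2 Ω → ℝ} (hU : Good U 1) (F : Finset (Sym2 V)) :
    BM (fun z : V → Ω => ∏ e ∈ F, (1 + U (e.map z))) :=
  BM.finprod F fun e _ => (BM.const 1).add (hU.bm_edge e)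

/-- V0 without finiteness -/
theorem Zk_eq_int_of (H : SimpleGraph V) [DecidableRel H.Adj] (μ : Measure Ω)
    [IsProbabilityMeasure μ] {U : Sym2 Ω → ℝ} (hU : Good U 1) {k : V → Ω → ℝ}
    (hk : ∀ v, BM (k v)) (v : V) : Zk H μ U k = ∫ s, k v s * Pk H μ U k v s ∂μ := by
  unfold Zk
  have hb : BM (fun z : V → Ω => (∏ w, k w (z w)) * ∏ e ∈ H.edgeFinset, (1 + U (e.map z))) :=
    (bm_k hk univ).mul (bm_edges hU _)
  rw [integral_update μ v hb]
  have h1 : ∀ z : V → Ω, ∀ y : Ω, (∏ w, k w (Function.update z v y w)) *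
      ∏ e ∈ H.edgeFinset, (1 + U (e.map (Function.update z v y))) =
      k v y * ((∏ w ∈ univ.erase v, k w (z w)) *
        ∏ e ∈ H.edgeFinset, (1 + U (e.map (Function.update z v y)))) := by
    intro z y
    rw [← Finset.mul_prod_erase univ (fun w => k w (Function.update z v y w)) (mem_univ v),
      Function.update_self, mul_assoc]
    congr 2
    refine Finset.prod_congr rfl fun w hw => ?_
    rw [Function.update_of_ne (Finset.ne_of_mem_erase hw)]
  simp only [h1]
  have hq : BM (fun q : (V → Ω) × Ω => k v q.2 * ((∏ w ∈ univ.erase v, k w (q.1 w)) *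
        ∏ e ∈ H.edgeFinset, (1 + U (e.map (Function.update q.1 v q.2))))) := by
    refine ((hk v).comp measurable_snd).mul (((bm_k hk _).comp measurable_fst).mul ?_)
    exact (bm_edges hU H.edgeFinset).comp (measurable_upd v)
  have hs : ∫ z, ∫ y, k v y * ((∏ w ∈ univ.erase v, k w (z w)) *
        ∏ e ∈ H.edgeFinset, (1 + U (e.map (Function.update z v y)))) ∂μ ∂(piM V μ) =
      ∫ y, ∫ z, k v y * ((∏ w ∈ univ.erase v, k w (z w)) *
        ∏ e ∈ H.edgeFinset, (1 + U (e.map (Function.update z v y)))) ∂(piM V μ) ∂μ :=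
    integral_integral_swap (f := fun z y => k v y * ((∏ w ∈ univ.erase v, k w (z w)) *
        ∏ e ∈ H.edgeFinset, (1 + U (e.map (Function.update z v y))))) (hq.integrable _)
  rw [hs]
  refine integral_congr_ae (Filter.Eventually.of_forall fun y => ?_)
  show ∫ z, k v y * _ ∂(piM V μ) = _
  rw [integral_const_mul]
  rfl

end H602

section

variable {V : Type*} [Fintype V] [DecidableEq V] {Ω : Type*} [MeasurableSpace Ω]
  [Fintype Ω] [MeasurableSingletonClass Ω]
variable (H : SimpleGraph V) [DecidableRel H.Adj]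
variable (μ : Measure Ω) [IsProbabilityMeasure μ] {U : Sym2 Ω → ℝ} {κ η : ℝ}

/-- V0 -/
theorem Zk_eq_int (hU : Ker μ U κ η) (k : V → Ω → ℝ) (v : V) :
    Zk H μ U k = ∫ s, k v s * Pk H μ U k v s ∂μ :=
  H602.Zk_eq_int_of H μ hU.good (fun v => H602.bm_fin (k v)) v

end

end Vale.Agent.P050.Opt
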