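import Vale.Agent.P050.O.H300.MainLog
import Vale.Agent.P050.O.H602.S4
import Vale.Agent.P050.O.H602.Zk
import Vale.Agent.P050.O.H602.LogLe

set_option linter.all false

/-!
Dense targets, phase 5, V3a (helper602): the inequality for vertex weights in the box.
-/

open MeasureTheory Finset

namespace Vale.Agent.P050.Opt

open Vale.Agent.P050 Vale.Agent.P050.Dense

namespace H602

variable {V : Type*} [Fintype V] [DecidableEq V] {Ω : Type*} [MeasurableSpace Ω]
variable (H : SimpleGraph V) [DecidableRel H.Adj]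
variable (μ : Measure Ω) [IsProbabilityMeasure μ] {U : Sym2 Ω → ℝ} {κ η : ℝ}

theorem A_bd {k : V → Ω → ℝ} (hb : ∀ v, BM (k v)) (hk : Box k) (v : V) :
    1 ≤ ∫ s, k v s ∂μ ∧ ∫ s, k v s ∂μ ≤ 3 / 2 := by
  constructor
  · have := integral_mono (μ := μ) (integrable_const (1:ℝ)) ((hb v).integrable μ)
      (fun s => (hk v s).1)
    simpa using this
  · have := integral_mono (μ := μ) ((hb v).integrable μ) (integrable_const (3 / 2 : ℝ))
      (fun s => (hk v s).2)
    simpa using this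

theorem one_of_box {k : V → Ω → ℝ} (hb : ∀ v, BM (k v)) (hk : Box k) :
    One μ (fun v s => k v s / (∫ s, k v s ∂μ) - 1) := by
  have hA := A_bd μ hb hk
  refine ⟨fun v => ?_, fun v => ?_, fun v s => ?_⟩
  · have h1 := ((BM.const (X := Ω) (∫ s, k v s ∂μ)⁻¹).mul (hb v)).sub (BM.const 1)
    have h2 : (fun s => k v s / (∫ s, k v s ∂μ) - 1) =
        fun s => (∫ s, k v s ∂μ)⁻¹ * k v s - 1 := by
      ext s; rw [div_eq_inv_mul]
    rw [h2]; exact h1
  · have h0 : (∫ s, k v s ∂μ) ≠ 0 := by have := (hA v).1; positivity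
    rw [integral_sub (((hb v).integrable μ).div_const _) (integrable_const _),
      integral_div, div_self h0]
    simp
  · have h1 := hA v
    have h2 := hk v s
    have h0 : 0 < (∫ s, k v s ∂μ) := by linarith
    rw [abs_le]
    constructor
    · have : 1 / 2 ≤ k v s / (∫ s, k v s ∂μ) := by
        rw [le_div_iff₀ h0]; linarith
      linarith
    · have : k v s / (∫ s, k v s ∂μ) ≤ 3 / 2 := by
        rw [div_le_iff₀ h0]; linarith
      linarith

theorem Zk_eq_ZE {k : V → Ω → ℝ} (hb : ∀ v, BM (k v)) (hk : Box k) :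
    Zk H μ U k = (∏ v, ∫ s, k v s ∂μ) *
      ZE H μ U (fun v s => k v s / (∫ s, k v s ∂μ) - 1) univ := by
  have hA := A_bd μ hb hk
  unfold Zk ZE
  rw [← integral_const_mul]
  refine integral_congr_ae (Filter.Eventually.of_forall fun z => ?_)
  show _ = (∏ v, ∫ s, k v s ∂μ) * Env H U _ univ z
  unfold Env
  have h1 : H.edgeFinset.filter (fun e => ∀ v ∈ e, v ∈ (univ : Finset V)) = H.edgeFinset :=
    Finset.filter_true_of_mem fun e _ v _ => mem_univ v
  rw [h1, ← mul_assoc, ← Finset.prod_mul_distrib]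
  show (∏ v, k v (z v)) * _ = _
  congr 1
  refine Finset.prod_congr rfl fun v _ => ?_
  have h0 : (∫ s, k v s ∂μ) ≠ 0 := by have := (hA v).1; positivity
  field_simp
  ring

theorem int_log_le {k : V → Ω → ℝ} (hb : ∀ v, BM (k v)) (hk : Box k) (v : V) :
    ∫ s, Real.log (k v s) ∂μ ≤ Real.log (∫ s, k v s ∂μ) -
      1 / 4 * rr μ (fun v s => k v s / (∫ s, k v s ∂μ) - 1) v := by
  have hA := A_bd μ hb hk v
  have hO := one_of_box μ hb hk
  have h0 : 0 < (∫ s, k v s ∂μ) := by linarith [hA.1]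
  set R : V → Ω → ℝ := fun v s => k v s / (∫ s, k v s ∂μ) - 1 with hR
  have hr1 := hO.bm v
  have hr2 : BM (fun s => R v s ^ 2) := hr1.pow 2
  have h2 : ∫ s, Real.log (k v s) ∂μ ≤
      ∫ s, (Real.log (∫ s, k v s ∂μ) + (R v s - R v s ^ 2 / 4)) ∂μ := by
    have hg : BM (fun s => Real.log (∫ s, k v s ∂μ) + (R v s - R v s ^ 2 / 4)) := by
      have := (BM.const (X := Ω) (Real.log (∫ s, k v s ∂μ))).add
        (hr1.sub ((BM.const (1 / 4 : ℝ)).mul hr2))
      have h3 : (fun s => Real.log (∫ s, k v s ∂μ) + (R v s - R v s ^ 2 / 4)) =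
          fun s => Real.log (∫ s, k v s ∂μ) + (R v s - 1 / 4 * R v s ^ 2) := by
        ext s; ring
      rw [h3]; exact this
    refine integral_mono_of_nonneg (Filter.Eventually.of_forall fun s => ?_) (hg.integrable μ)
      (Filter.Eventually.of_forall fun s => ?_)
    · exact Real.log_nonneg (hk v s).1
    · show Real.log (k v s) ≤ Real.log (∫ s, k v s ∂μ) + (R v s - R v s ^ 2 / 4)
      have h3 : k v s = (∫ s, k v s ∂μ) * (1 + R v s) := by
        rw [hR]; field_simp; ring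
      have h4 := abs_le.1 (hO.bd v s)
      have h5 : 0 < 1 + R v s := by linarith [h4.1]
      rw [h3, Real.log_mul h0.ne' h5.ne']
      have := log_le h4.1 h4.2
      linarith
  refine h2.trans (le_of_eq ?_)
  have h6 : ∫ s, R v s ∂μ = 0 := hO.zero v
  have e1 : ∫ s, (R v s - R v s ^ 2 / 4) ∂μ = -(1 / 4 * rr μ R v) := by
    rw [integral_sub (hr1.integrable μ) ((hr2.integrable μ).div_const 4), h6, integral_div]
    unfold rr
    ring
  have e2 : ∫ s, (Real.log (∫ s, k v s ∂μ) + (R v s - R v s ^ 2 / 4)) ∂μ =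
      ∫ _s, Real.log (∫ s, k v s ∂μ) ∂μ + ∫ s, (R v s - R v s ^ 2 / 4) ∂μ :=
    integral_add (integrable_const _) ((hr1.integrable μ).sub ((hr2.integrable μ).div_const 4))
  rw [e2, e1]
  simp only [integral_const, probReal_univ, one_smul]
  ring

theorem box_le_of {D : ℕ} (hH : H.IsBipartite) (hD : ∀ v, H.degree v ≤ D) (hU : Ker μ U κ η)
    (hη : (1 + η) ^ D ≤ 2) (hκ : 10 ^ 12 * D * κ ≤ 1) {k : V → Ω → ℝ} (hb : ∀ v, BM (k v))
    (hk : Box k) :
    0 < Zk H μ U k ∧ ∑ v, ∫ s, Real.log (k v s) ∂μ ≤ Real.log (Zk H μ U k) := by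
  have hκ0 := hU.κ0
  have hDκ : (0 : ℝ) ≤ D * κ := by positivity
  have h24 : 24 * D * κ ≤ 1 := by nlinarith
  have hO := one_of_box μ hb hk
  have hA := A_bd μ hb hk
  have hA0 : ∀ v, 0 < (∫ s, k v s ∂μ) := fun v => by linarith [(hA v).1]
  have hpos := ZE_pos H μ hD hU hη hO h24 univ
  have hmain := main_log_of H μ hH hD hU hη hO hκ (fun Λ => ZE_pos H μ hD hU hη hO h24 Λ)
    fun Λ v hv => ZE_ratio H μ hD hU hη hO h24 hv
  have hP : 0 < ∏ v, ∫ s, k v s ∂μ := Finset.prod_pos fun v _ => hA0 v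
  rw [Zk_eq_ZE H μ hb hk]
  refine ⟨mul_pos hP hpos, ?_⟩
  rw [Real.log_mul hP.ne' hpos.ne', Real.log_prod fun v _ => (hA0 v).ne']
  have h1 : ∑ v, ∫ s, Real.log (k v s) ∂μ ≤ ∑ v, (Real.log (∫ s, k v s ∂μ) -
      1 / 4 * rr μ (fun v s => k v s / (∫ s, k v s ∂μ) - 1) v) :=
    Finset.sum_le_sum fun v _ => int_log_le μ hb hk v
  rw [Finset.sum_sub_distrib, ← Finset.mul_sum] at h1
  linarith

end H602

section

variable {V : Type*} [Fintype V] [DecidableEq V] {Ω : Type*} [MeasurableSpace Ω]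
  [Fintype Ω] [MeasurableSingletonClass Ω]
variable (H : SimpleGraph V) [DecidableRel H.Adj]
variable (μ : Measure Ω) [IsProbabilityMeasure μ] {U : Sym2 Ω → ℝ} {κ η : ℝ}

/-- V3a -/
theorem box_le {D : ℕ} (hH : H.IsBipartite) (hD : ∀ v, H.degree v ≤ D) (hU : Ker μ U κ η)
    (hη : (1 + η) ^ D ≤ 2) (hκ : 10 ^ 12 * D * κ ≤ 1) {k : V → Ω → ℝ} (hk : Box k) :
    0 < Zk H μ U k ∧ ∑ v, ∫ s, Real.log (k v s) ∂μ ≤ Real.log (Zk H μ U k) :=
  H602.box_le_of H μ hH hD hU hη hκ (fun v => H602.bm_fin (k v)) hk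

end

end Vale.Agent.P050.Opt
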