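import Vale.Agent.P050.O.H694.Coupling
import Vale.Agent.P050.O.H300.AsmDefs
import Vale.Agent.P050.H398.Ord

set_option linter.all false

/-!
Dense targets, phase 6, F1 (helper602): Sidorenko's inequality for sets of sequences.
-/

open MeasureTheory Finset

namespace Vale.Agent.P050.Opt

open Vale.Agent.P050 Vale.Agent.P050.Dense

namespace H602

variable {V : Type} [Fintype V] [DecidableEq V] {Ω : Type} [Fintype Ω] [DecidableEq Ω]

open Vale.Agent.P050.Lev Vale.Agent.P050.H398

/-- products over the edges, directed -/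
theorem prod_side {H : SimpleGraph V} [DecidableRel H.Adj] {s : V → Bool}
    (hs : ∀ u v, H.Adj u v → s u ≠ s v)
    {M : Type*} [CommMonoid M] (F : Sym2 V → M) :
    ∏ e ∈ H.edgeFinset, F e = ∏ e ∈ Lev.sideEdges H s, F s(e.1, e.2) := by
  classical
  symm
  refine Finset.prod_bij (fun e _ => s(e.1, e.2)) ?_ ?_ ?_ ?_
  · intro e he
    rw [SimpleGraph.mem_edgeFinset, SimpleGraph.mem_edgeSet]
    exact (mem_sideEdges.1 he).1
  · intro e he e' he' h
    have h1 := mem_sideEdges.1 he
    have h2 := mem_sideEdges.1 he'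
    rcases Sym2.eq_iff.1 h with ⟨a, b⟩ | ⟨a, b⟩
    · exact Prod.ext a b
    · have := h1.2.1
      rw [a, h2.2.2] at this
      exact absurd this (by decide)
  · intro e he
    induction e with
    | h a b =>
      rw [SimpleGraph.mem_edgeFinset, SimpleGraph.mem_edgeSet] at he
      have hab := hs a b he
      cases ha : s a
      · refine ⟨(a, b), mem_sideEdges.2 ⟨he, ha, ?_⟩, rfl⟩
        cases hb : s b
        · exact absurd (ha.trans hb.symm) hab
        · rfl
      · refine ⟨(b, a), mem_sideEdges.2 ⟨he.symm, ?_, ha⟩, Sym2.eq_swap⟩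
        cases hb : s b
        · rfl
        · exact absurd (ha.trans hb.symm) hab
  · intro e _
    rfl

/-- regrouping of sequences of configurations -/
theorem regroup (H : SimpleGraph V) (w : Ω → ℝ) (U : Sym2 Ω → ℝ) {s : V → Bool}
    (hs : ∀ u v, H.Adj u v → s u ≠ s v) {N : ℕ} (T : Finset (Fin N → Ω)) :
    (open scoped Classical in
      ∑ Z : Fin N → (V → Ω), if (∀ v, (fun i => Z i v) ∈ T) then ∏ i, mH H w U (Z i) else 0) =
    ∑ x : V → (Fin N → Ω), (∏ v, if x v ∈ T then ∏ i, w (x v i) else 0) *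
      ∏ e ∈ Lev.sideEdges H s, ∏ i, (1 + U s(x e.1 i, x e.2 i)) := by
  classical
  refine Fintype.sum_equiv (Equiv.piComm fun _ _ => Ω) _ _ fun Z => ?_
  show _ = (∏ v, if (fun i => Z i v) ∈ T then ∏ i, w (Z i v) else 0) *
      ∏ e ∈ Lev.sideEdges H s, ∏ i, (1 + U s(Z i e.1, Z i e.2))
  by_cases h : ∀ v, (fun i => Z i v) ∈ T
  · rw [if_pos h]
    have h1 : ∀ v, (if (fun i => Z i v) ∈ T then ∏ i, w (Z i v) else 0) = ∏ i, w (Z i v) :=
      fun v => if_pos (h v)
    simp only [h1]
    unfold mH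
    rw [Finset.prod_mul_distrib, Finset.prod_comm]
    congr 1
    symm
    rw [Finset.prod_comm]
    refine Finset.prod_congr rfl fun i _ => ?_
    rw [prod_side hs]
    refine Finset.prod_congr rfl fun e _ => ?_
    rw [Sym2.map_mk]
  · rw [if_neg h]
    push Not at h
    obtain ⟨v, hv⟩ := h
    have h0 : (∏ v, if (fun i => Z i v) ∈ T then ∏ i, w (Z i v) else 0) = 0 :=
      Finset.prod_eq_zero (mem_univ v) (if_neg hv)
    rw [h0, zero_mul]

/-- the inequality for a set of sequences of large mass -/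
theorem sid_set {H : SimpleGraph V} (hH : IsSidorenko H) {w : Ω → ℝ} {U : Sym2 Ω → ℝ}
    (hw : Wt w U) {N : ℕ} (T : Finset (Fin N → Ω)) (hT : (3 / 4 : ℝ) ≤ ∑ x ∈ T, ∏ i, w (x i)) :
    (open scoped Classical in (1 / 2 : ℝ) ^ (Fintype.card V + Nat.card H.edgeSet) ≤
        ∑ Z : Fin N → (V → Ω), if (∀ v, (fun i => Z i v) ∈ T) then ∏ i, mH H w U (Z i) else 0) := by
  classical
  obtain ⟨⟨C⟩, hS⟩ := hH
  set s : V → Bool := fun v => decide (C v = 1) with hsdef
  have hs : ∀ u v, H.Adj u v → s u ≠ s v := by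
    intro u v huv h
    have h1 := C.valid huv
    have h2 : (C u = 1) ↔ (C v = 1) := by
      rw [hsdef] at h
      simpa only [decide_eq_decide] using h
    apply h1
    generalize C u = p at h2
    generalize C v = q at h2
    revert p q
    decide
  rw [regroup H w U hs T]
  set P : ℝ := ∑ x ∈ T, ∏ i, w (x i) with hP
  have hP0 : 0 < P := by linarith
  have hP1 : P ≤ 1 := by
    have h1 := H694.seq_total hw.sum (N := N)
    rw [hP, ← h1]
    exact Finset.sum_le_sum_of_subset_of_nonneg (Finset.subset_univ T) fun x _ _ =>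
      Finset.prod_nonneg fun i _ => (hw.pos _).le
  have hc := H694.coupling hw T hT
  -- the weights
  set m : (Fin N → Ω) → ℝ := fun x => (if x ∈ T then ∏ i, w (x i) else 0) / P with hm
  have hm0 : ∀ x, 0 ≤ m x := fun x => by
    rw [hm]
    refine div_nonneg ?_ hP0.le
    split_ifs
    · exact Finset.prod_nonneg fun i _ => (hw.pos _).le
    · exact le_rfl
  have hm1 : ∑ x, m x = 1 := by
    rw [hm, ← Finset.sum_div, Finset.sum_ite_mem, Finset.univ_inter, ← hP, div_self hP0.ne']
  have hK0 : ∀ x y : Fin N → Ω, 0 ≤ ∏ i, (1 + U s(x i, y i)) := fun x y =>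
    Finset.prod_nonneg fun i _ => hw.nn _
  have hKs : ∀ x y : Fin N → Ω, ∏ i, (1 + U s(x i, y i)) = ∏ i, (1 + U s(y i, x i)) :=
    fun x y => Finset.prod_congr rfl fun i _ => by rw [Sym2.eq_swap]
  have hW := wsid_of_ordinary hs hS (Fin N → Ω) m (fun x y => ∏ i, (1 + U s(x i, y i))) hm0 hm1
    hK0 hKs
  rw [card_sideEdges H s hs] at hW
  -- the mean of the kernel
  have hmean : 1 / 2 ≤ ∑ x, ∑ y, m x * m y * ∏ i, (1 + U s(x i, y i)) := by
    have h1 : ∑ x, ∑ y, m x * m y * ∏ i, (1 + U s(x i, y i)) =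
        (∑ x ∈ T, ∑ y ∈ T, (∏ i, w (x i)) * (∏ i, w (y i)) * ∏ i, (1 + U s(x i, y i))) /
          P ^ 2 := by
      rw [Finset.sum_div]
      rw [← Finset.sum_filter_add_sum_filter_not univ (fun x => x ∈ T)]
      have h2 : ∑ x ∈ univ.filter (fun x => ¬ x ∈ T), ∑ y, m x * m y *
          ∏ i, (1 + U s(x i, y i)) = 0 := by
        refine Finset.sum_eq_zero fun x hx => Finset.sum_eq_zero fun y _ => ?_
        have : m x = 0 := by
          rw [hm]; simp only [if_neg (Finset.mem_filter.1 hx).2, zero_div]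
        rw [this]; ring
      rw [h2, add_zero, Finset.filter_mem_eq_inter, Finset.univ_inter]
      refine Finset.sum_congr rfl fun x hx => ?_
      rw [Finset.sum_div, ← Finset.sum_filter_add_sum_filter_not univ (fun y => y ∈ T)]
      have h3 : ∑ y ∈ univ.filter (fun y => ¬ y ∈ T), m x * m y *
          ∏ i, (1 + U s(x i, y i)) = 0 := by
        refine Finset.sum_eq_zero fun y hy => ?_
        have : m y = 0 := by
          rw [hm]; simp only [if_neg (Finset.mem_filter.1 hy).2, zero_div]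
        rw [this]; ring
      rw [h3, add_zero, Finset.filter_mem_eq_inter, Finset.univ_inter]
      refine Finset.sum_congr rfl fun y hy => ?_
      rw [hm]
      simp only [if_pos hx, if_pos hy]
      field_simp
    rw [h1, le_div_iff₀ (by positivity)]
    have : P ^ 2 ≤ 1 := pow_le_one₀ hP0.le hP1
    linarith
  -- conclusion
  have h4 : ∀ x : V → (Fin N → Ω), (∏ v, if x v ∈ T then ∏ i, w (x v i) else 0) =
      P ^ Fintype.card V * ∏ v, m (x v) := by
    intro x
    rw [hm]
    simp only [Finset.prod_div_distrib, Finset.prod_const, Finset.card_univ]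
    field_simp
  have h5 : ∑ x : V → (Fin N → Ω), (∏ v, if x v ∈ T then ∏ i, w (x v i) else 0) *
      ∏ e ∈ Lev.sideEdges H s, ∏ i, (1 + U s(x e.1 i, x e.2 i)) =
      P ^ Fintype.card V * ∑ x : V → (Fin N → Ω), (∏ v, m (x v)) *
      ∏ e ∈ Lev.sideEdges H s, ∏ i, (1 + U s(x e.1 i, x e.2 i)) := by
    rw [Finset.mul_sum]
    refine Finset.sum_congr rfl fun x _ => ?_
    rw [h4 x, mul_assoc]
  rw [h5, pow_add]
  refine mul_le_mul ?_ ((pow_le_pow_left₀ (by norm_num) hmean _).trans hW) (by positivity)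
    (by positivity)
  exact pow_le_pow_left₀ (by norm_num) (by linarith) _

end H602

end Vale.Agent.P050.Opt
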