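import Vale.Agent.P050.O.H602.SidTyp
import Vale.Agent.P050.O.H602.SidSet

set_option linter.all false

/-!
Dense targets, phase 6, F1 (helper602): sid_typical.
-/

open MeasureTheory Finset

namespace Vale.Agent.P050.Opt

open Vale.Agent.P050 Vale.Agent.P050.Dense

section

variable {V : Type} [Fintype V] [DecidableEq V] {Ω : Type} [Fintype Ω] [DecidableEq Ω]

/-- F1: the sequences of configurations with all vertex marginals close to `w` -/
theorem sid_typical {H : SimpleGraph V} (hH : IsSidorenko H) {w : Ω → ℝ} {U : Sym2 Ω → ℝ}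
    (hw : Wt w U) {δ : ℝ} (hδ : 0 < δ) :
    ∀ᶠ N : ℕ in Filter.atTop, (1 / 2 : ℝ) ^ (Fintype.card V + Nat.card H.edgeSet) ≤
      ∑ Z : Fin N → (V → Ω), (open scoped Classical in
        if ∀ v s, |∑ z ∈ univ.filter (fun z : V → Ω => z v = s), emp Z z - w s| ≤ δ
        then ∏ i, mH H w U (Z i) else 0) := by
  classical
  refine H602.sid_typical_of hw (fun {N} T hT => ?_) hδ
  have h1 : (3 / 4 : ℝ) ≤ ∑ x ∈ univ.filter (fun x => x ∈ T), ∏ i, w (x i) := by
    rw [Finset.sum_filter]
    exact hT
  refine (H602.sid_set hH hw (univ.filter (fun x => x ∈ T)) h1).trans (le_of_eq ?_)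
  refine Finset.sum_congr rfl fun Z _ => ?_
  simp only [Finset.mem_filter, Finset.mem_univ, true_and]

end

end Vale.Agent.P050.Opt
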