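import Vale.Agent.P050.O.H261.Lln
import Vale.Agent.P050.O.H300.AsmDefs

set_option linter.all false

/-!
Dense targets, phase 6, F1 (helper602): final step of sid_typical.
-/

open MeasureTheory Finset

namespace Vale.Agent.P050.Opt

open Vale.Agent.P050 Vale.Agent.P050.Dense

namespace H602

variable {V : Type} [Fintype V] [DecidableEq V] {Ω : Type} [Fintype Ω] [DecidableEq Ω]

/-- the marginals of the empirical law are the empirical laws of the coordinates -/
theorem marg_emp {N : ℕ} (Z : Fin N → (V → Ω)) (v : V) (s : Ω) :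
    ∑ z ∈ univ.filter (fun z : V → Ω => z v = s), emp Z z = emp (fun i => Z i v) s := by
  unfold emp
  rw [← Finset.sum_div, ← Nat.cast_sum]
  congr 2
  rw [Finset.card_eq_sum_card_fiberwise (f := Z) (t := univ.filter (fun z : V → Ω => z v = s))]
  · refine Finset.sum_congr rfl fun z hz => ?_
    have hz' : z v = s := (Finset.mem_filter.1 hz).2
    congr 1
    ext i
    simp only [Finset.mem_filter, Finset.mem_univ, true_and]
    constructor
    · intro h
      exact ⟨by rw [h]; exact hz', h⟩
    · exact fun h => h.2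
  · intro i hi
    have : Z i v = s := (Finset.mem_filter.1 hi).2
    simpa using this

/-- F1 from the law of large numbers and the inequality for sets of sequences of large mass -/
theorem sid_typical_of {H : SimpleGraph V} {w : Ω → ℝ} {U : Sym2 Ω → ℝ}
    (hw : Wt w U)
    (hset : ∀ {N : ℕ} (T : Set (Fin N → Ω)), (open scoped Classical in
      (3 / 4 : ℝ) ≤ ∑ x : Fin N → Ω, if x ∈ T then ∏ i, w (x i) else 0) →
      (open scoped Classical in (1 / 2 : ℝ) ^ (Fintype.card V + Nat.card H.edgeSet) ≤
        ∑ Z : Fin N → (V → Ω), if (∀ v, (fun i => Z i v) ∈ T) then ∏ i, mH H w U (Z i) else 0))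
    {δ : ℝ} (hδ : 0 < δ) :
    ∀ᶠ N : ℕ in Filter.atTop, (1 / 2 : ℝ) ^ (Fintype.card V + Nat.card H.edgeSet) ≤
      ∑ Z : Fin N → (V → Ω), (open scoped Classical in
        if ∀ v s, |∑ z ∈ univ.filter (fun z : V → Ω => z v = s), emp Z z - w s| ≤ δ
        then ∏ i, mH H w U (Z i) else 0) := by
  classical
  filter_upwards [H261.typ_mass (fun s => (hw.pos s).le) hw.sum hδ] with N hN
  refine (hset {x : Fin N → Ω | ∀ s, |emp x s - w s| ≤ δ} ?_).trans (le_of_eq ?_)
  · refine hN.trans (le_of_eq (Finset.sum_congr rfl fun x _ => ?_))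
    simp only [Set.mem_setOf_eq]
  · refine Finset.sum_congr rfl fun Z _ => ?_
    simp only [marg_emp, Set.mem_setOf_eq]

end H602

end Vale.Agent.P050.Opt
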