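import Vale.Agent.P050.O.H602.SidSet
import Vale.Agent.P050.O.H602.SidTyp

set_option linter.all false

/-!
Dense targets, phase 6 (helper602): typical sequences with all edge marginals.
-/

open MeasureTheory Finset

namespace Vale.Agent.P050.Opt

open Vale.Agent.P050 Vale.Agent.P050.Dense

namespace H602

variable {V : Type} [Fintype V] [DecidableEq V] {Ω : Type} [Fintype Ω] [DecidableEq Ω]

open Vale.Agent.P050.Lev Vale.Agent.P050.H398

/-- regrouping of sequences of configurations, with a relation on the edges -/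
theorem regroupE (H : SimpleGraph V) (w : Ω → ℝ) (U : Sym2 Ω → ℝ) {s : V → Bool}
    (hs : ∀ u v, H.Adj u v → s u ≠ s v) {N : ℕ} (T : Finset (Fin N → Ω))
    (R : (Fin N → Ω) → (Fin N → Ω) → Prop) (hR : ∀ x y, R x y → R y x) :
    (open scoped Classical in
      ∑ Z : Fin N → (V → Ω), if (∀ v, (fun i => Z i v) ∈ T) ∧
        (∀ u v, H.Adj u v → R (fun i => Z i u) (fun i => Z i v))
        then ∏ i, mH H w U (Z i) else 0) =
    (open scoped Classical in
      ∑ x : V → (Fin N → Ω), (∏ v, if x v ∈ T then ∏ i, w (x v i) else 0) *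
      ∏ e ∈ Lev.sideEdges H s, (if R (x e.1) (x e.2) then ∏ i, (1 + U s(x e.1 i, x e.2 i))
        else 0)) := by
  classical
  refine Fintype.sum_equiv (Equiv.piComm fun _ _ => Ω) _ _ fun Z => ?_
  show _ = (∏ v, if (fun i => Z i v) ∈ T then ∏ i, w (Z i v) else 0) *
      ∏ e ∈ Lev.sideEdges H s, (if R (fun i => Z i e.1) (fun i => Z i e.2) then
        ∏ i, (1 + U s(Z i e.1, Z i e.2)) else 0)
  by_cases h : ∀ v, (fun i => Z i v) ∈ T
  · by_cases h' : ∀ u v, H.Adj u v → R (fun i => Z i u) (fun i => Z i v)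
    · rw [if_pos ⟨h, h'⟩]
      have h1 : ∀ v, (if (fun i => Z i v) ∈ T then ∏ i, w (Z i v) else 0) = ∏ i, w (Z i v) :=
        fun v => if_pos (h v)
      simp only [h1]
      unfold mH
      rw [Finset.prod_mul_distrib, Finset.prod_comm]
      congr 1
      have h2 : ∏ e ∈ Lev.sideEdges H s, (if R (fun i => Z i e.1) (fun i => Z i e.2) then
          ∏ i, (1 + U s(Z i e.1, Z i e.2)) else 0) =
          ∏ e ∈ Lev.sideEdges H s, ∏ i, (1 + U s(Z i e.1, Z i e.2)) :=
        Finset.prod_congr rfl fun e he => if_pos (h' _ _ (mem_sideEdges.1 he).1)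
      rw [h2]
      symm
      rw [Finset.prod_comm]
      refine Finset.prod_congr rfl fun i _ => ?_
      rw [prod_side hs]
      refine Finset.prod_congr rfl fun e _ => ?_
      rw [Sym2.map_mk]
    · rw [if_neg fun hc => h' hc.2]
      push Not at h'
      obtain ⟨u, v, huv, hn⟩ := h'
      have h0 : ∏ e ∈ Lev.sideEdges H s, (if R (fun i => Z i e.1) (fun i => Z i e.2) then
          ∏ i, (1 + U s(Z i e.1, Z i e.2)) else 0) = 0 := by
        have hab := hs u v huv
        cases ha : s u
        · cases hb : s v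
          · exact absurd (ha.trans hb.symm) hab
          · exact Finset.prod_eq_zero (i := (u, v)) (mem_sideEdges.2 ⟨huv, ha, hb⟩) (if_neg hn)
        · cases hb : s v
          · exact Finset.prod_eq_zero (i := (v, u)) (mem_sideEdges.2 ⟨huv.symm, hb, ha⟩)
              (if_neg fun hc => hn (hR _ _ hc))
          · exact absurd (ha.trans hb.symm) hab
      rw [h0, mul_zero]
  · rw [if_neg fun hc => h hc.1]
    push Not at h
    obtain ⟨v, hv⟩ := h
    have h0 : (∏ v, if (fun i => Z i v) ∈ T then ∏ i, w (Z i v) else 0) = 0 :=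
      Finset.prod_eq_zero (mem_univ v) (if_neg hv)
    rw [h0, zero_mul]

/-- Sidorenko's inequality for a set of sequences and a symmetric relation -/
theorem sid_setE {H : SimpleGraph V} (hH : IsSidorenko H) {w : Ω → ℝ} {U : Sym2 Ω → ℝ}
    (hw : Wt w U) {N : ℕ} (T : Finset (Fin N → Ω)) (hT : (1 / 2 : ℝ) ≤ ∑ x ∈ T, ∏ i, w (x i))
    (R : (Fin N → Ω) → (Fin N → Ω) → Prop) (hR : ∀ x y, R x y → R y x)
    (hc : (open scoped Classical in (1 / 2 : ℝ) ≤ ∑ x ∈ T, ∑ y ∈ T,
      (∏ i, w (x i)) * (∏ i, w (y i)) * (if R x y then ∏ i, (1 + U s(x i, y i)) else 0))) :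
    (open scoped Classical in (1 / 2 : ℝ) ^ (Fintype.card V + Nat.card H.edgeSet) ≤
      ∑ Z : Fin N → (V → Ω), if (∀ v, (fun i => Z i v) ∈ T) ∧
        (∀ u v, H.Adj u v → R (fun i => Z i u) (fun i => Z i v))
        then ∏ i, mH H w U (Z i) else 0) := by
  classical
  obtain ⟨⟨C⟩, hS⟩ := hH
  set s : V → Bool := fun v => decide (C v = 1) with hsdef
  have hs : ∀ u v, H.Adj u v → s u ≠ s v := by
    intro u v huv h
    have h1 := C.valid huv
    have h2 : (C u = 1) ↔ (C v = 1) := by
      rw [hsdef] at h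
      simpa only [decide_eq_decide] using h
    apply h1
    generalize C u = p at h2
    generalize C v = q at h2
    revert p q
    decide
  rw [regroupE H w U hs T R hR]
  set P : ℝ := ∑ x ∈ T, ∏ i, w (x i) with hP
  have hP0 : 0 < P := by linarith
  have hP1 : P ≤ 1 := by
    have h1 := H694.seq_total hw.sum (N := N)
    rw [hP, ← h1]
    exact Finset.sum_le_sum_of_subset_of_nonneg (Finset.subset_univ T) fun x _ _ =>
      Finset.prod_nonneg fun i _ => (hw.pos _).le
  -- the weights
  set m : (Fin N → Ω) → ℝ := fun x => (if x ∈ T then ∏ i, w (x i) else 0) / P with hm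
  have hm0 : ∀ x, 0 ≤ m x := fun x => by
    rw [hm]
    refine div_nonneg ?_ hP0.le
    split_ifs
    · exact Finset.prod_nonneg fun i _ => (hw.pos _).le
    · exact le_rfl
  have hm1 : ∑ x, m x = 1 := by
    rw [hm, ← Finset.sum_div, Finset.sum_ite_mem, Finset.univ_inter, ← hP, div_self hP0.ne']
  set K : (Fin N → Ω) → (Fin N → Ω) → ℝ := fun x y =>
    if R x y then ∏ i, (1 + U s(x i, y i)) else 0 with hK
  have hK0 : ∀ x y : Fin N → Ω, 0 ≤ K x y := fun x y => by
    rw [hK]
    dsimp only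
    split_ifs
    · exact Finset.prod_nonneg fun i _ => hw.nn _
    · exact le_rfl
  have hKs : ∀ x y : Fin N → Ω, K x y = K y x := fun x y => by
    have e1 : (∏ i, (1 + U s(x i, y i))) = ∏ i, (1 + U s(y i, x i)) :=
      Finset.prod_congr rfl fun i _ => by rw [Sym2.eq_swap]
    rw [hK]
    dsimp only
    by_cases h : R x y
    · rw [if_pos h, if_pos (hR _ _ h), e1]
    · rw [if_neg h, if_neg fun hc => h (hR _ _ hc)]
  have hW := wsid_of_ordinary hs hS (Fin N → Ω) m K hm0 hm1 hK0 hKs
  rw [card_sideEdges H s hs] at hW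
  -- the mean of the kernel
  have hmean : 1 / 2 ≤ ∑ x, ∑ y, m x * m y * K x y := by
    have h1 : ∑ x, ∑ y, m x * m y * K x y =
        (∑ x ∈ T, ∑ y ∈ T, (∏ i, w (x i)) * (∏ i, w (y i)) * K x y) / P ^ 2 := by
      rw [Finset.sum_div]
      rw [← Finset.sum_filter_add_sum_filter_not univ (fun x => x ∈ T)]
      have h2 : ∑ x ∈ univ.filter (fun x => ¬ x ∈ T), ∑ y, m x * m y * K x y = 0 := by
        refine Finset.sum_eq_zero fun x hx => Finset.sum_eq_zero fun y _ => ?_
        have : m x = 0 := by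
          rw [hm]; simp only [if_neg (Finset.mem_filter.1 hx).2, zero_div]
        rw [this]; ring
      rw [h2, add_zero, Finset.filter_mem_eq_inter, Finset.univ_inter]
      refine Finset.sum_congr rfl fun x hx => ?_
      rw [Finset.sum_div, ← Finset.sum_filter_add_sum_filter_not univ (fun y => y ∈ T)]
      have h3 : ∑ y ∈ univ.filter (fun y => ¬ y ∈ T), m x * m y * K x y = 0 := by
        refine Finset.sum_eq_zero fun y hy => ?_
        have : m y = 0 := by
          rw [hm]; simp only [if_neg (Finset.mem_filter.1 hy).2, zero_div]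
        rw [this]; ring
      rw [h3, add_zero, Finset.filter_mem_eq_inter, Finset.univ_inter]
      refine Finset.sum_congr rfl fun y hy => ?_
      rw [hm]
      simp only [if_pos hx, if_pos hy]
      field_simp
    rw [h1, le_div_iff₀ (by positivity)]
    have : P ^ 2 ≤ 1 := pow_le_one₀ hP0.le hP1
    have hc' : (1 / 2 : ℝ) ≤ ∑ x ∈ T, ∑ y ∈ T, (∏ i, w (x i)) * (∏ i, w (y i)) * K x y := hc
    linarith
  -- conclusion
  have h4 : ∀ x : V → (Fin N → Ω), (∏ v, if x v ∈ T then ∏ i, w (x v i) else 0) =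
      P ^ Fintype.card V * ∏ v, m (x v) := by
    intro x
    rw [hm]
    simp only [Finset.prod_div_distrib, Finset.prod_const, Finset.card_univ]
    field_simp
  have h5 : ∑ x : V → (Fin N → Ω), (∏ v, if x v ∈ T then ∏ i, w (x v i) else 0) *
      ∏ e ∈ Lev.sideEdges H s, K (x e.1) (x e.2) =
      P ^ Fintype.card V * ∑ x : V → (Fin N → Ω), (∏ v, m (x v)) *
      ∏ e ∈ Lev.sideEdges H s, K (x e.1) (x e.2) := by
    rw [Finset.mul_sum]
    refine Finset.sum_congr rfl fun x _ => ?_
    rw [h4 x, mul_assoc]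
  show (1 / 2 : ℝ) ^ (Fintype.card V + Nat.card H.edgeSet) ≤
    ∑ x : V → (Fin N → Ω), (∏ v, if x v ∈ T then ∏ i, w (x v i) else 0) *
      ∏ e ∈ Lev.sideEdges H s, K (x e.1) (x e.2)
  rw [h5, pow_add]
  refine mul_le_mul ?_ ((pow_le_pow_left₀ (by norm_num) hmean _).trans hW) (by positivity)
    (by positivity)
  exact pow_le_pow_left₀ (by norm_num) (by linarith) _

end H602

end Vale.Agent.P050.Opt
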