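import Vale.Agent.P050.O.H602.SidEdge
import Vale.Agent.P050.O.H559.Lln

set_option linter.all false

/-!
Dense targets, phase 6 (helper602): typical sequences with all edge marginals, final form.
-/

open MeasureTheory Finset

namespace Vale.Agent.P050.Opt

open Vale.Agent.P050 Vale.Agent.P050.Dense

namespace H602

theorem emp_map {A B : Type*} [Fintype A] [DecidableEq A] [DecidableEq B] {N : ℕ}
    (Z : Fin N → A) (φ : A → B) (b : B) :
    ∑ a ∈ univ.filter (fun a => φ a = b), emp Z a = emp (fun i => φ (Z i)) b := by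
  unfold emp
  rw [← Finset.sum_div, ← Nat.cast_sum]
  congr 2
  rw [Finset.card_eq_sum_card_fiberwise (f := Z) (t := univ.filter (fun a => φ a = b))]
  · refine Finset.sum_congr rfl fun z hz => ?_
    have hz' : φ z = b := (Finset.mem_filter.1 hz).2
    congr 1
    ext i
    simp only [Finset.mem_filter, Finset.mem_univ, true_and]
    constructor
    · intro h
      exact ⟨by rw [h]; exact hz', h⟩
    · exact fun h => h.2
  · intro i hi
    have : φ (Z i) = b := (Finset.mem_filter.1 hi).2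
    simpa using this

variable {V : Type} [Fintype V] [DecidableEq V] {Ω : Type} [Fintype Ω] [DecidableEq Ω]

/-- the law of an edge -/
noncomputable def edl (w : Ω → ℝ) (U : Sym2 Ω → ℝ) (p : Ω × Ω) : ℝ :=
  w p.1 * w p.2 * (1 + U s(p.1, p.2))

theorem edl_nonneg {w : Ω → ℝ} {U : Sym2 Ω → ℝ} (hw : Wt w U) (p : Ω × Ω) : 0 ≤ edl w U p :=
  mul_nonneg (mul_nonneg (hw.pos _).le (hw.pos _).le) (hw.nn _)

theorem edl_fst {w : Ω → ℝ} {U : Sym2 Ω → ℝ} (hw : Wt w U) (s : Ω) :
    ∑ t, edl w U (s, t) = w s := by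
  unfold edl
  simp only
  have h1 : ∀ t, w s * w t * (1 + U s(s, t)) = w s * (w t + w t * U s(s, t)) := fun t => by ring
  simp only [h1]
  rw [← Finset.mul_sum, Finset.sum_add_distrib, hw.sum, hw.marg s]
  ring

theorem edl_swap (w : Ω → ℝ) (U : Sym2 Ω → ℝ) (s t : Ω) : edl w U (s, t) = edl w U (t, s) := by
  unfold edl
  simp only
  rw [Sym2.eq_swap]
  ring

theorem edl_sum {w : Ω → ℝ} {U : Sym2 Ω → ℝ} (hw : Wt w U) : ∑ p, edl w U p = 1 := by
  rw [Fintype.sum_prod_type]
  simp only [edl_fst hw]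
  exact hw.sum

theorem emp_fst {N : ℕ} (x y : Fin N → Ω) (s : Ω) :
    ∑ t, emp (fun i => (x i, y i)) (s, t) = emp x s := by
  have h1 := emp_map (fun i => (x i, y i)) Prod.fst s
  rw [← show emp (fun i => ((x i, y i) : Ω × Ω).1) s = emp x s from rfl, ← h1, Finset.sum_filter,
    Fintype.sum_prod_type]
  symm
  rw [Finset.sum_eq_single s]
  · simp
  · intro b _ hb
    simp [hb]
  · intro h
    exact absurd (mem_univ s) h

theorem emp_swap {N : ℕ} (x y : Fin N → Ω) (s t : Ω) :
    emp (fun i => (x i, y i)) (s, t) = emp (fun i => (y i, x i)) (t, s) := by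
  unfold emp
  congr 2
  congr 1
  ext i
  simp only [Finset.mem_filter, Finset.mem_univ, true_and, Prod.mk.injEq]
  exact and_comm

/-- the pairs of sequences typical for the edge law -/
def Ptyp (w : Ω → ℝ) (U : Sym2 Ω → ℝ) {N : ℕ} (δ : ℝ) (x y : Fin N → Ω) : Prop :=
  ∀ p, |emp (fun i => (x i, y i)) p - edl w U p| ≤ δ

theorem Ptyp.symm {w : Ω → ℝ} {U : Sym2 Ω → ℝ} {N : ℕ} {δ : ℝ} {x y : Fin N → Ω}
    (h : Ptyp w U δ x y) : Ptyp w U δ y x := by
  rintro ⟨s, t⟩
  rw [emp_swap, edl_swap]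
  exact h (t, s)

theorem Ptyp.fst {w : Ω → ℝ} {U : Sym2 Ω → ℝ} (hw : Wt w U) {N : ℕ} {δ : ℝ} {x y : Fin N → Ω}
    (h : Ptyp w U δ x y) (s : Ω) : |emp x s - w s| ≤ Fintype.card Ω * δ := by
  rw [← emp_fst x y s, ← edl_fst hw s, ← Finset.sum_sub_distrib]
  refine (Finset.abs_sum_le_sum_abs _ _).trans ?_
  calc ∑ t, |emp (fun i => (x i, y i)) (s, t) - edl w U (s, t)| ≤ ∑ _t : Ω, δ :=
        Finset.sum_le_sum fun t _ => h (s, t)
    _ = Fintype.card Ω * δ := by rw [Finset.sum_const, Finset.card_univ, nsmul_eq_mul]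

/-- law of large numbers for pairs -/
theorem pair_mass {w : Ω → ℝ} {U : Sym2 Ω → ℝ} (hw : Wt w U) {δ ε : ℝ} (hδ : 0 < δ)
    (hε : 0 < ε) :
    ∀ᶠ N : ℕ in Filter.atTop, 1 - ε ≤ ∑ x : Fin N → Ω, ∑ y : Fin N → Ω,
      (∏ i, w (x i)) * (∏ i, w (y i)) * (open scoped Classical in
        if Ptyp w U δ x y then ∏ i, (1 + U s(x i, y i)) else 0) := by
  classical
  filter_upwards [H559.lln (edl_nonneg hw) (edl_sum hw) hδ hε] with N hN
  refine hN.trans (le_of_eq ?_)
  rw [← Fintype.sum_prod_type']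
  refine Fintype.sum_equiv (Equiv.arrowProdEquivProdArrow (Fin N) (fun _ => Ω) (fun _ => Ω)) _ _
    fun P => ?_
  show _ = (∏ i, w (P i).1) * (∏ i, w (P i).2) *
    (if Ptyp w U δ (fun i => (P i).1) (fun i => (P i).2) then
      ∏ i, (1 + U s((P i).1, (P i).2)) else 0)
  by_cases h : ∀ a, |emp P a - edl w U a| ≤ δ
  · rw [if_pos h, if_pos (show Ptyp w U δ (fun i => (P i).1) (fun i => (P i).2) from h)]
    unfold edl
    rw [Finset.prod_mul_distrib, Finset.prod_mul_distrib]
  · rw [if_neg h, if_neg (show ¬ Ptyp w U δ (fun i => (P i).1) (fun i => (P i).2) from h),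
      mul_zero]

end H602

section

variable {V : Type} [Fintype V] [DecidableEq V] {Ω : Type} [Fintype Ω] [DecidableEq Ω]

open H602

/-- F1 with edges: the sequences of configurations with all vertex marginals close to `w` and all
edge marginals close to `w w (1 + U)` -/
theorem sid_typical_edge {H : SimpleGraph V} (hH : IsSidorenko H) {w : Ω → ℝ} {U : Sym2 Ω → ℝ}
    (hw : Wt w U) {δ : ℝ} (hδ : 0 < δ) :
    ∀ᶠ N : ℕ in Filter.atTop, (1 / 2 : ℝ) ^ (Fintype.card V + Nat.card H.edgeSet) ≤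
      ∑ Z : Fin N → (V → Ω), (open scoped Classical in
        if (∀ v s, |∑ z ∈ univ.filter (fun z : V → Ω => z v = s), emp Z z - w s| ≤ δ) ∧
          (∀ u v, H.Adj u v → ∀ s t,
            |∑ z ∈ univ.filter (fun z : V → Ω => z u = s ∧ z v = t), emp Z z -
              w s * w t * (1 + U s(s, t))| ≤ δ)
        then ∏ i, mH H w U (Z i) else 0) := by
  classical
  have hne : Nonempty Ω := by
    by_contra h
    rw [not_nonempty_iff] at h
    have := hw.sum
    simp at this
  have hc : (1:ℝ) ≤ Fintype.card Ω := by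
    exact_mod_cast Fintype.card_pos
  have hc0 : (0:ℝ) < Fintype.card Ω := by linarith
  set δ' : ℝ := δ / Fintype.card Ω with hδ'
  have hδ'0 : 0 < δ' := by positivity
  have hδ'1 : δ' ≤ δ := div_le_self hδ.le hc
  have hδ'2 : (Fintype.card Ω : ℝ) * δ' = δ := by rw [hδ']; field_simp
  filter_upwards [pair_mass hw hδ'0 (by norm_num : (0:ℝ) < 1 / 2),
    H261.typ_mass (fun s => (hw.pos s).le) hw.sum hδ] with N hN hN1
  set T : Finset (Fin N → Ω) := univ.filter (fun x => ∀ s, |emp x s - w s| ≤ δ) with hT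
  have hT1 : (1 / 2 : ℝ) ≤ ∑ x ∈ T, ∏ i, w (x i) := by
    have h1 : ∑ x ∈ T, ∏ i, w (x i) =
        ∑ x : Fin N → Ω, if (∀ s, |emp x s - w s| ≤ δ) then ∏ i, w (x i) else 0 := by
      rw [hT, Finset.sum_filter]
    have h2 : (3 / 4 : ℝ) ≤ ∑ x ∈ T, ∏ i, w (x i) := by
      rw [h1]
      refine hN1.trans (le_of_eq (Finset.sum_congr rfl fun x _ => ?_))
      congr
    linarith
  have hmem : ∀ x y : Fin N → Ω, Ptyp w U δ' x y → x ∈ T := fun x y h => by
    rw [hT, Finset.mem_filter]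
    refine ⟨mem_univ _, fun s => ?_⟩
    rw [← hδ'2]
    exact h.fst hw s
  have hc' : (1 / 2 : ℝ) ≤ ∑ x ∈ T, ∑ y ∈ T,
      (∏ i, w (x i)) * (∏ i, w (y i)) *
        (if Ptyp w U δ' x y then ∏ i, (1 + U s(x i, y i)) else 0) := by
    have h1 : ∑ x ∈ T, ∑ y ∈ T, (∏ i, w (x i)) * (∏ i, w (y i)) *
        (if Ptyp w U δ' x y then ∏ i, (1 + U s(x i, y i)) else 0) =
        ∑ x : Fin N → Ω, ∑ y : Fin N → Ω, (∏ i, w (x i)) * (∏ i, w (y i)) *
        (if Ptyp w U δ' x y then ∏ i, (1 + U s(x i, y i)) else 0) := by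
      rw [← Finset.sum_subset (Finset.subset_univ T)]
      · refine Finset.sum_congr rfl fun x _ => ?_
        rw [← Finset.sum_subset (Finset.subset_univ T)]
        intro y _ hy
        rw [if_neg fun h => hy (hmem y x h.symm), mul_zero]
      · intro x _ hx
        refine Finset.sum_eq_zero fun y _ => ?_
        rw [if_neg fun h => hx (hmem x y h), mul_zero]
    rw [h1]
    norm_num at hN ⊢
    exact hN
  have hfin := sid_setE hH hw T hT1 (Ptyp w U δ') (fun x y h => h.symm) hc'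
  refine hfin.trans (Finset.sum_le_sum fun Z _ => ?_)
  have hnn : 0 ≤ ∏ i, mH H w U (Z i) := Finset.prod_nonneg fun i _ => by
    unfold mH
    exact mul_nonneg (Finset.prod_nonneg fun v _ => (hw.pos _).le)
      (Finset.prod_nonneg fun e _ => hw.nn _)
  by_cases h : (∀ v, (fun i => Z i v) ∈ T) ∧
      (∀ u v, H.Adj u v → Ptyp w U δ' (fun i => Z i u) (fun i => Z i v))
  · rw [if_pos h, if_pos]
    refine ⟨fun v s => ?_, fun u v huv s t => ?_⟩
    · rw [marg_emp]
      have := h.1 v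
      rw [hT, Finset.mem_filter] at this
      exact this.2 s
    · have h1 := emp_map Z (fun z : V → Ω => (z u, z v)) (s, t)
      have h2 : (univ.filter fun z : V → Ω => (z u, z v) = (s, t)) =
          univ.filter fun z : V → Ω => z u = s ∧ z v = t := by
        ext z
        simp only [Finset.mem_filter, Finset.mem_univ, true_and, Prod.mk.injEq]
      rw [h2] at h1
      rw [h1]
      exact (h.2 u v huv (s, t)).trans hδ'1
  · rw [if_neg h]
    split_ifs
    · exact hnn
    · exact le_rfl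

end

end Vale.Agent.P050.Opt
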